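import Vale.Agent.P235.H141.Star.Defs
import Vale.Agent.P235.H206.Final
import Vale.Agent.P235.Comp.Core
import Mathlib.Analysis.Complex.ExponentialBounds

/-!
# P235, star sums, [C]: the stretched metric and the final theorem
-/

set_option autoImplicit false

namespace Vale.Agent.P235.H23.Star

open Vale.Agent.P235 Vale.Agent.P235.H141.Star

section

variable {V : Type} {G E : SimpleGraph V} {d : V → V → ℝ} {M : ℝ}

theorem reach_of_gen (hd : IsMet d) (hG : Gen G d) (x y : V) : G.Reachable x y := by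
  classical
  by_contra h
  have h1 := hG (fun v => if G.Reachable x v then 0 else d x y + 1) (fun u v huv => by
    have e : G.Reachable x u ↔ G.Reachable x v :=
      ⟨fun a => a.trans huv.reachable, fun a => a.trans huv.symm.reachable⟩
    simp only [e, sub_self, abs_zero]
    exact hd.nonneg u v) x y
  simp only [if_neg h, SimpleGraph.Reachable.refl, if_true, zero_sub, abs_neg] at h1
  have h2 := le_abs_self (d x y + 1)
  linarith

theorem conn_of_gen [Nonempty V] (hd : IsMet d) (hG : Gen G d) : G.Connected := by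
  rw [SimpleGraph.connected_iff]
  exact ⟨fun x y => reach_of_gen hd hG x y, inferInstance⟩

open Classical in
/-- marked edges keep their length, the others are multiplied by `M` -/
noncomputable def len (E : SimpleGraph V) (hd : IsMet d) (M : ℝ) : Sym2 V → ℝ :=
  Sym2.lift ⟨fun u v => if E.Adj u v then d u v else M * d u v, fun u v => by
    simp only [hd.symm u v, E.adj_comm u v]⟩

open Classical in
theorem len_mk (hd : IsMet d) (u v : V) :
    len E hd M s(u, v) = if E.Adj u v then d u v else M * d u v := rfl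

theorem le_len (hd : IsMet d) (hM : 1 ≤ M) (u v : V) : d u v ≤ len E hd M s(u, v) := by
  rw [len_mk]
  have h0 := hd.nonneg u v
  split_ifs
  · exact le_rfl
  · nlinarith

theorem len_le (hd : IsMet d) (hM : 1 ≤ M) (u v : V) : len E hd M s(u, v) ≤ M * d u v := by
  rw [len_mk]
  have h0 := hd.nonneg u v
  split_ifs
  · nlinarith
  · exact le_rfl

theorem len_pos (hd : IsMet d) (hM : 1 ≤ M) : ∀ e ∈ G.edgeSet, 0 < len E hd M e := by
  intro e
  induction e using Sym2.inductionOn with
  | hf u v =>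
    intro he
    exact (hd.pos u v ((SimpleGraph.mem_edgeSet _).1 he).ne).trans_le (le_len hd hM u v)

/-- the stretched metric -/
noncomputable def dp (G E : SimpleGraph V) (hd : IsMet d) (M : ℝ) : V → V → ℝ :=
  pathDist G (len E hd M)

theorem le_dp (hd : IsMet d) (hM : 1 ≤ M) (hc : G.Connected) (x y : V) :
    d x y ≤ dp G E hd M x y := by
  have h := pathDist_gen hc (ℓ := len E hd M) (f := fun z => d x z) (fun u v _ => by
    refine le_trans ?_ (le_len hd hM u v)
    have h1 := hd.tri x u v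
    have h2 := hd.tri x v u
    rw [hd.symm v u] at h2
    rw [abs_le]
    constructor <;> linarith) x y
  simp only [hd.self, zero_sub, abs_neg] at h
  exact (le_abs_self _).trans h

theorem dp_le [Finite V] (hd : IsMet d) (hG : Gen G d) (hM : 1 ≤ M) (hc : G.Connected)
    (x y : V) : dp G E hd M x y ≤ M * d x y := by
  have hM0 : 0 < M := by linarith
  have hd' : IsMet (dp G E hd M) := pathDist_isMet hc (len_pos hd hM)
  have h := hG (fun z => dp G E hd M x z / M) (fun u v huv => by
    have h1 := hd'.tri x u v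
    have h2 := hd'.tri x v u
    rw [hd'.symm v u] at h2
    have h3 : dp G E hd M u v ≤ M * d u v :=
      (pathDist_adj (len_pos hd hM) huv).trans (len_le hd hM u v)
    rw [← sub_div, abs_div, abs_of_pos hM0, div_le_iff₀ hM0, abs_le]
    constructor <;> linarith) x y
  simp only [hd'.self, zero_div, zero_sub, abs_neg] at h
  have h4 := (le_abs_self _).trans h
  rw [div_le_iff₀ hM0] at h4
  linarith

theorem walk_lip' {ℓ : Sym2 V → ℝ} {f : V → ℝ} {x y : V} (w : G.Walk x y)
    (hf : ∀ a b, s(a, b) ∈ w.edges → |f a - f b| ≤ ℓ s(a, b)) :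
    |f x - f y| ≤ (w.edges.map ℓ).sum := by
  induction w with
  | nil => simp
  | cons h p ih =>
    rw [SimpleGraph.Walk.edges_cons, List.map_cons, List.sum_cons]
    refine (abs_sub_le _ _ _).trans (add_le_add (hf _ _ ?_) (ih fun a b hab => hf a b ?_))
    · rw [SimpleGraph.Walk.edges_cons]
      exact List.mem_cons_self
    · rw [SimpleGraph.Walk.edges_cons]
      exact List.mem_cons_of_mem _ hab

/-- the stretched metric is generated by the tight edges -/
theorem gen_dp [Finite V] (hd : IsMet d) (hM : 1 ≤ M) (hc : G.Connected) :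
    Gen (tight G E d (dp G E hd M) M) (dp G E hd M) := by
  intro f hf
  have hpos := len_pos (G := G) (E := E) hd hM
  have hd' : IsMet (dp G E hd M) := pathDist_isMet hc hpos
  have key : ∀ u v, G.Adj u v → |f u - f v| ≤ len E hd M s(u, v) := by
    by_contra hcon
    push Not at hcon
    obtain ⟨u0, v0, h0, h0'⟩ := hcon
    obtain ⟨p, hp, hmin⟩ := Set.exists_min_image
      {p : V × V | G.Adj p.1 p.2 ∧ len E hd M s(p.1, p.2) < |f p.1 - f p.2|}
      (fun p => len E hd M s(p.1, p.2)) (Set.toFinite _) ⟨(u0, v0), h0, h0'⟩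
    obtain ⟨hadj, hlt⟩ := hp
    have h1 : dp G E hd M p.1 p.2 ≤ len E hd M s(p.1, p.2) := pathDist_adj hpos hadj
    have h2 : ¬ (tight G E d (dp G E hd M) M).Adj p.1 p.2 := by
      intro ht
      have := hf p.1 p.2 ht
      linarith
    have h3 : ¬ E.Adj p.1 p.2 := fun hE => h2 ⟨hadj, Or.inl hE⟩
    have h4 : dp G E hd M p.1 p.2 < M * d p.1 p.2 := by
      by_contra h5
      rw [not_lt] at h5
      refine h2 ⟨hadj, Or.inr ⟨h5, ?_⟩⟩
      rw [hd.symm p.2 p.1, hd'.symm p.2 p.1]
      exact h5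
    have h5 : len E hd M s(p.1, p.2) = M * d p.1 p.2 := by
      rw [len_mk, if_neg h3]
    rw [← h5] at h4
    have : Nonempty (G.Walk p.1 p.2) := hc p.1 p.2
    obtain ⟨w, hw⟩ := exists_lt_of_ciInf_lt h4
    have h6 := walk_lip' (ℓ := len E hd M) (f := f) w (fun a b hab => by
      by_contra h7
      rw [not_le] at h7
      have h8 : G.Adj a b := SimpleGraph.Walk.adj_of_mem_edges w hab
      have h9 := hmin (a, b) ⟨h8, h7⟩
      have h10 : len E hd M s(a, b) ≤ (w.edges.map (len E hd M)).sum := by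
        refine List.single_le_sum ?_ _ (List.mem_map_of_mem hab)
        intro r hr
        obtain ⟨e, he, rfl⟩ := List.mem_map.1 hr
        exact (hpos e (w.edges_subset_edgeSet he)).le
      simp only at h9
      linarith)
    linarith
  intro x y
  exact pathDist_gen hc key x y

/-- **[C]** the stretched metric exists -/
theorem exists_pair [Finite V] (hd : IsMet d) (hG : Gen G d) (hEG : E ≤ G) (hM : 1 ≤ M) :
    ∃ d' : V → V → ℝ, Pair G E M d d' := by
  rcases isEmpty_or_nonempty V with h | h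
  · exact ⟨d, ⟨hd, hd, hG, fun f _ x => h.elim x, fun x => h.elim x, fun x => h.elim x,
      fun x => h.elim x⟩⟩
  · have hc := conn_of_gen hd hG
    refine ⟨dp G E hd M, ⟨hd, pathDist_isMet hc (len_pos hd hM), hG, gen_dp hd hM hc,
      le_dp hd hM hc, dp_le hd hG hM hc, fun u v huv => le_antisymm ?_ (le_dp hd hM hc u v)⟩⟩
    have h1 : dp G E hd M u v ≤ len E hd M s(u, v) := pathDist_adj (len_pos hd hM) (hEG huv)
    rwa [len_mk, if_pos huv] at h1

/-- the embedding of a metric generated by the edges of a graph with `c₁ ≤ C` -/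
theorem emb_of_dist [Finite V] [Nonempty V] (hd : IsMet d) (hG : Gen G d) {C : ℝ} (hC : 1 ≤ C)
    (h : DistortionLE G C) : ∃ F : V → V → ℝ, IsL1 F ∧ (∀ x y, 1 / C * d x y ≤ F x y) ∧
      ∀ x y, F x y ≤ d x y := by
  have hc := conn_of_gen hd hG
  have hC0 : 0 < C := by linarith
  have e : ∀ x y, pathDist G (len (⊥ : SimpleGraph V) hd 1) x y = d x y := by
    intro x y
    refine le_antisymm ?_ (le_dp hd le_rfl hc x y)
    have h1 := dp_le (E := ⊥) hd hG le_rfl hc x y
    rwa [one_mul] at h1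
  obtain ⟨ρ, hρ, h1, h2, -⟩ := (h (len (⊥ : SimpleGraph V) hd 1) (len_pos hd le_rfl)).toL1S
  refine ⟨_, hρ.isL1.smul (by positivity : (0 : ℝ) ≤ 1 / C), fun x y => ?_, fun x y => ?_⟩
  · have h3 := h1 x y
    rw [e] at h3
    exact mul_le_mul_of_nonneg_left h3 (by positivity)
  · have h3 := h2 x y
    rw [e] at h3
    calc 1 / C * ρ x y ≤ 1 / C * (C * d x y) := mul_le_mul_of_nonneg_left h3 (by positivity)
      _ = d x y := by field_simp

end

/-- the embeddings of the metrics of a marked edge sum without deletions -/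
theorem emb_sum0 (hA : IndStmt) {P : ∀ (V : Type), SimpleGraph V → SimpleGraph V → Prop}
    {c M C : ℝ} (hc : 0 < c) (hc1 : c ≤ 1) (hM : 1 ≤ M) (hC : 1 ≤ C) (hcC : c / (12000 * M) ≤ 1 / C)
    (hP : ∀ (V : Type) [Finite V] (G E : SimpleGraph V), E ≤ G → P V G E → PieceOK M c G E)
    (hD : ∀ (V : Type) [Finite V] (G E : SimpleGraph V), G.Connected → P V G E → DistortionLE G C)
    {V : Type} [Finite V] {G E : SimpleGraph V} (hE : MSum0 P G E) (d : V → V → ℝ) (hd : IsMet d)
    (hG : Gen G d) : ∃ F : V → V → ℝ, IsL1 F ∧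
      (∀ x y, c / (12000 * M) * d x y ≤ F x y) ∧ ∀ x y, F x y ≤ d x y := by
  have hM0 : 0 < M := by linarith
  have hE' := hE
  cases hE with
  | base _ hp =>
    rcases isEmpty_or_nonempty V with h | h
    · exact ⟨fun _ _ => 0, IsL1.zero, fun x => h.elim x, fun x => h.elim x⟩
    · obtain ⟨F, h1, h2, h3⟩ := emb_of_dist hd hG hC (hD _ _ _ (conn_of_gen hd hG) hp)
      exact ⟨F, h1, fun x y =>
        (mul_le_mul_of_nonneg_right hcC (hd.nonneg x y)).trans (h2 x y), h3⟩
  | @glue _ _ _ A B s t hEG hst _ _ _ _ _ =>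
    obtain ⟨d', hp⟩ := exists_pair hd hG hEG hM
    obtain ⟨F, h1, -, h2, h3⟩ := hA P c M hc hc1 hM hP V G E hE' d d' hp s t hst
    refine ⟨_, h1.smul (by positivity : (0 : ℝ) ≤ 1 / M), fun x y => ?_, fun x y => ?_⟩
    · have h4 : c / 12000 * d x y ≤ c / 12000 * d' x y :=
        mul_le_mul_of_nonneg_left (hp.le x y) (by positivity)
      have h5 := mul_le_mul_of_nonneg_left (h4.trans (h2 x y)) (by positivity : (0 : ℝ) ≤ 1 / M)
      refine le_trans (le_of_eq ?_) h5
      field_simp
    · have h4 := mul_le_mul_of_nonneg_left ((h3 x y).trans (hp.le' x y))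
        (by positivity : (0 : ℝ) ≤ 1 / M)
      refine h4.trans (le_of_eq ?_)
      field_simp

/-- the embeddings of the metrics of a marked edge sum -/
theorem emb_sum (hS : SuperStmt) (hA : IndStmt)
    {P : ∀ (V : Type), SimpleGraph V → SimpleGraph V → Prop}
    {c M C : ℝ} (hc : 0 < c) (hc1 : c ≤ 1) (hM : 1 ≤ M) (hC : 1 ≤ C) (hcC : c / (12000 * M) ≤ 1 / C)
    (hP : ∀ (V : Type) [Finite V] (G E : SimpleGraph V), E ≤ G → P V G E → PieceOK M c G E)
    (hD : ∀ (V : Type) [Finite V] (G E : SimpleGraph V), G.Connected → P V G E → DistortionLE G C)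
    {V : Type} [Finite V] {G E : SimpleGraph V} (hE : MSum P G E) (d : V → V → ℝ) (hd : IsMet d)
    (hG : Gen G d) : ∃ F : V → V → ℝ, IsL1 F ∧
      (∀ x y, c / (12000 * M) * d x y ≤ F x y) ∧ ∀ x y, F x y ≤ d x y := by
  obtain ⟨G₁, E₁, hle, -, h0⟩ := hS P V G E hE
  exact emb_sum0 hA hc hc1 hM hC hcC hP hD h0 d hd
    fun f hf => hG f fun u v huv => hf u v (hle huv)

theorem MSum.mono {P Q : ∀ (V : Type), SimpleGraph V → SimpleGraph V → Prop}
    (h : ∀ (V : Type) (G E : SimpleGraph V), P V G E → Q V G E) {V : Type} {G E : SimpleGraph V}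
    (hE : MSum P G E) : MSum Q G E := by
  induction hE with
  | base hEG hp => exact MSum.base hEG (h _ _ _ hp)
  | del _ h1 h2 h3 ih => exact MSum.del ih h1 h2 h3
  | glue h1 h2 h3 h4 h5 _ _ ih1 ih2 => exact MSum.glue h1 h2 h3 h4 h5 ih1 ih2

/-- pieces with edge-isometric embeddings need no condition on the marks -/
theorem pieceOK_of_edgeIso {V : Type} [Finite V] {G E : SimpleGraph V} {C M c : ℝ} (hC : 1 ≤ C)
    (hc : c ≤ 1 / C) (hEG : E ≤ G) (h : EdgeIso G C) : PieceOK M c G E := by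
  intro d d' hp s t hst D hD hDd
  have hx := EdgeIso.edgeExact (by linarith : 0 < C) fun _ => h
  have hgen : Gen G d' := fun f hf => hp.gen' f fun u v huv => hf u v huv.1
  obtain ⟨F, h1, h2, h3, h4⟩ := hx (short d' s t D) (short_isMet hp.met' hD)
    (short_gen hp.met' hgen (hEG hst)) s t (hEG hst)
  rw [short_st hp.met' hD hDd] at h2
  exact ⟨F, h1, h2, fun x y => (mul_le_mul_of_nonneg_right hc
    ((short_isMet hp.met' hD).nonneg x y)).trans (h3 x y), h4⟩

theorem one_le_log (t : ℕ) (ht : 1 ≤ t) : 1 ≤ Real.log ((t : ℝ) + 2) := by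
  have h1 : (1 : ℝ) ≤ t := by exact_mod_cast ht
  rw [Real.le_log_iff_exp_le (by linarith)]
  have := Real.exp_one_lt_d9
  linarith

/-- the pieces: `c₁ ≤ C`, and the marked edges are covered by at most `t` vertices -/
def Few (C : ℝ) (t : ℕ) (V : Type) (G E : SimpleGraph V) : Prop :=
  DistortionLE G C ∧ ∃ A : Finset V, A.card ≤ t ∧ ∀ u v, E.Adj u v → u ∈ A ∨ v ∈ A

/-- **star sums**, mixed form -/
theorem star_sum_mixed (hS : SuperStmt) (hA : IndStmt) (hB : StarStmt) : ∃ K : ℝ, 1 ≤ K ∧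
    ∀ (C : ℝ) (t : ℕ), 1 ≤ C → ∀ (V : Type) [Finite V] (G E : SimpleGraph V), G.Connected →
      MSum (fun V G E => (DistortionLE G C ∧ ∃ A : Finset V, A.card ≤ t ∧
        ∀ u v, E.Adj u v → u ∈ A ∨ v ∈ A) ∨ EdgeIso G C) G E →
      DistortionLE G (K * C ^ 2 * Real.log ((t : ℝ) + 2)) := by
  obtain ⟨K, hK, hB⟩ := hB
  refine ⟨72000 * K, by nlinarith, fun C t hC V _ G E hconn hE => ?_⟩
  obtain ⟨t', ht', htt, hlog⟩ : ∃ t' : ℕ, 1 ≤ t' ∧ t ≤ t' ∧
      Real.log ((t' : ℝ) + 2) ≤ 2 * Real.log ((t : ℝ) + 2) := by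
    rcases Nat.eq_zero_or_pos t with h0 | h0
    · subst h0
      refine ⟨1, le_rfl, zero_le_one, ?_⟩
      have h1 : (2 : ℝ) * Real.log (((0 : ℕ) : ℝ) + 2) = Real.log (2 ^ 2) := by
        rw [Real.log_pow]
        norm_num
      rw [h1]
      exact Real.log_le_log (by norm_num) (by norm_num)
    · refine ⟨t, h0, le_rfl, ?_⟩
      have := one_le_log t h0
      linarith
  have hC0 : 0 < C := by linarith
  have hL := one_le_log t' ht'
  have hKC : C ≤ K * C := by nlinarith
  have hKC1 : 1 ≤ K * C := by linarith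
  have hKCL : K * C ≤ K * C * Real.log ((t' : ℝ) + 2) := by nlinarith
  have hc : 0 < 1 / (K * C * Real.log ((t' : ℝ) + 2)) := by positivity
  have hc1 : 1 / (K * C * Real.log ((t' : ℝ) + 2)) ≤ 1 := by
    rw [div_le_one (by linarith)]
    linarith
  have hcC' : 1 / (K * C * Real.log ((t' : ℝ) + 2)) ≤ 1 / C :=
    one_div_le_one_div_of_le hC0 (by linarith)
  have hcC : 1 / (K * C * Real.log ((t' : ℝ) + 2)) / (12000 * (3 * C)) ≤ 1 / C :=
    (div_le_self hc.le (by linarith)).trans hcC'
  have hmain := emb_sum hS hA hc hc1 (by linarith : 1 ≤ 3 * C) hC hcC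
    (P := fun V G E => (DistortionLE G C ∧ ∃ A : Finset V, A.card ≤ t ∧
        ∀ u v, E.Adj u v → u ∈ A ∨ v ∈ A) ∨ EdgeIso G C)
    (fun V _ G E hEG hp => by
      rcases hp with ⟨h2, A, h3, h4⟩ | hp
      · intro d d' hp s t hst
        have : Nonempty V := ⟨s⟩
        exact hB C t' hC ht' V G E (conn_of_gen hp.met hp.gen) hEG h2 A (h3.trans htt) h4
          d d' hp s t hst
      · exact pieceOK_of_edgeIso hC hcC' hEG hp)
    (fun V _ G E hconn hp => by
      rcases hp with hp | hp
      · exact hp.1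
      · have h1 := (EdgeIso.edgeExact hC0 fun _ => hp).distortion (by positivity) hconn
        rwa [one_div_one_div] at h1) hE
  have h0 : 0 < 1 / (K * C * Real.log ((t' : ℝ) + 2)) / (12000 * (3 * C)) := by positivity
  refine DistortionLE.mono
    (C := 1 / (1 / (K * C * Real.log ((t' : ℝ) + 2)) / (12000 * (3 * C)))) ?_ ?_
  · intro ℓ hℓ
    have hd := pathDist_isMet hconn hℓ
    have hgen : Gen G (pathDist G ℓ) := by
      intro f hf x y
      exact pathDist_gen hconn (fun u v huv => (hf u v huv).trans (pathDist_adj hℓ huv)) x y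
    obtain ⟨F, hF, hlow, hup⟩ := hmain _ hd hgen
    refine (hF.smul (one_div_nonneg.2 h0.le)).embeds (fun x y => ?_) (fun x y => ?_)
    · have h1 := mul_le_mul_of_nonneg_left (hlow x y) (one_div_nonneg.2 h0.le)
      rw [← mul_assoc, one_div_mul_cancel h0.ne', one_mul] at h1
      exact h1
    · exact mul_le_mul_of_nonneg_left (hup x y) (one_div_nonneg.2 h0.le)
  · have e : 1 / (1 / (K * C * Real.log ((t' : ℝ) + 2)) / (12000 * (3 * C))) =
        12000 * (3 * C) * (K * C * Real.log ((t' : ℝ) + 2)) := by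
      field_simp
    rw [e]
    have h1 : 0 ≤ 12000 * (3 * C) * (K * C) := by positivity
    calc 12000 * (3 * C) * (K * C * Real.log ((t' : ℝ) + 2))
        = 12000 * (3 * C) * (K * C) * Real.log ((t' : ℝ) + 2) := by ring
      _ ≤ 12000 * (3 * C) * (K * C) * (2 * Real.log ((t : ℝ) + 2)) :=
        mul_le_mul_of_nonneg_left hlog h1
      _ = _ := by ring

/-- **star sums** -/
theorem star_sum (hS : SuperStmt) (hA : IndStmt) (hB : StarStmt) : ∃ K : ℝ, 1 ≤ K ∧
    ∀ (C : ℝ) (t : ℕ), 1 ≤ C → ∀ (V : Type) [Finite V] (G E : SimpleGraph V), G.Connected →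
      MSum (fun V G E => DistortionLE G C ∧ ∃ A : Finset V, A.card ≤ t ∧
        ∀ u v, E.Adj u v → u ∈ A ∨ v ∈ A) G E →
      DistortionLE G (K * C ^ 2 * Real.log ((t : ℝ) + 2)) := by
  obtain ⟨K, hK, h⟩ := star_sum_mixed hS hA hB
  exact ⟨K, hK, fun C t hC V _ G E hconn hE => h C t hC V G E hconn
    (MSum.mono (fun _ _ _ hp => Or.inl hp) hE)⟩

end Vale.Agent.P235.H23.Star
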